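import Mathlib

/-! Row 12, block US: Gaussian smoothings of the sharp cut-off. -/

set_option autoImplicit false

namespace Crest.Agent.R12.US

open MeasureTheory ProbabilityTheory
open scoped NNReal

/-- the sharp cut-off -/
noncomputable def ind (w : ℝ) : ℝ := if w ≤ 0 then 1 else 0

/-- Gaussian smoothing with variance `v` -/
noncomputable def GS (v : ℝ≥0) (k : ℝ → ℝ) (u : ℝ) : ℝ := ∫ z, k (u - z) ∂(gaussianReal 0 v)

theorem measurable_ind : Measurable ind :=
  Measurable.ite measurableSet_Iic measurable_const measurable_const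

theorem abs_ind_le (w : ℝ) : |ind w| ≤ 1 := by
  unfold ind; split_ifs <;> simp

theorem integrable_bdd {k : ℝ → ℝ} (hk : Measurable k) (h1 : ∀ w, |k w| ≤ 1) (μ : Measure ℝ)
    [IsFiniteMeasure μ] (u : ℝ) : Integrable (fun z => k (u - z)) μ :=
  (integrable_const (1 : ℝ)).mono' (hk.comp (by fun_prop)).aestronglyMeasurable
    (ae_of_all _ fun z => h1 _)

theorem measurable_GS (v : ℝ≥0) {k : ℝ → ℝ} (hk : Measurable k) : Measurable (GS v k) := by
  have : StronglyMeasurable (Function.uncurry fun (u z : ℝ) => k (u - z)) :=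
    (hk.comp (measurable_fst.sub measurable_snd)).stronglyMeasurable
  exact (this.integral_prod_right (ν := gaussianReal 0 v)).measurable

theorem abs_GS_le (v : ℝ≥0) {k : ℝ → ℝ} (h1 : ∀ w, |k w| ≤ 1) (u : ℝ) : |GS v k u| ≤ 1 := by
  have := norm_integral_le_of_norm_le_const (μ := gaussianReal 0 v) (f := fun z => k (u - z)) (C := 1)
    (ae_of_all _ fun z => h1 _)
  simpa [GS] using this

theorem GS_add (v v' : ℝ≥0) {k : ℝ → ℝ} (hk : Measurable k) (h1 : ∀ w, |k w| ≤ 1) (u : ℝ) :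
    GS (v + v') k u = GS v (GS v' k) u := by
  unfold GS
  have h := gaussianReal_conv_gaussianReal (m₁ := 0) (m₂ := 0) (v₁ := v) (v₂ := v')
  rw [add_zero] at h
  rw [← h, integral_conv (integrable_bdd hk h1 _ u)]
  simp only [sub_add_eq_sub_sub]

theorem GS_sub (v : ℝ≥0) {k k' : ℝ → ℝ} (hk : Measurable k) (h1 : ∀ w, |k w| ≤ 1)
    (hk' : Measurable k') (h1' : ∀ w, |k' w| ≤ 1) (u : ℝ) :
    GS v (fun w => k w - k' w) u = GS v k u - GS v k' u :=
  integral_sub (integrable_bdd hk h1 _ u) (integrable_bdd hk' h1' _ u)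

theorem tail {v : ℝ≥0} (hv : v ≠ 0) (u : ℝ) :
    |ind u - GS v ind u| ≤ Real.exp (-(u ^ 2 / (2 * v))) := by
  have hv' : (0 : ℝ) < v := by positivity
  have e1 : ind u - GS v ind u = ∫ z, (ind u - ind (u - z)) ∂(gaussianReal 0 v) := by
    rw [integral_sub (integrable_const _) (integrable_bdd measurable_ind abs_ind_le _ u)]
    simp [GS]
  have hi := (integrable_exp_mul_gaussianReal (μ := 0) (v := v) (u / v)).const_mul
    (Real.exp (-(u / v * u)))
  have e2 := norm_integral_le_of_norm_le (f := fun z => ind u - ind (u - z)) hi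
    (ae_of_all _ fun z => by
      rw [← Real.exp_add, Real.norm_eq_abs]
      unfold ind
      split_ifs with h1 h2 h2
      · simp [Real.exp_nonneg]
      · rw [sub_zero, abs_one]
        refine Real.one_le_exp ?_
        have : u / v ≤ 0 := div_nonpos_of_nonpos_of_nonneg h1 hv'.le
        nlinarith [not_le.1 h2]
      · rw [zero_sub, abs_neg, abs_one]
        refine Real.one_le_exp ?_
        have : 0 ≤ u / v := div_nonneg (not_le.1 h1).le hv'.le
        nlinarith
      · simp [Real.exp_nonneg])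
  rw [e1, ← Real.norm_eq_abs]
  refine e2.trans (le_of_eq ?_)
  rw [integral_const_mul]
  have e3 := congrFun (mgf_fun_id_gaussianReal (μ := 0) (v := v)) (u / v)
  rw [mgf] at e3
  rw [e3, ← Real.exp_add]
  congr 1
  field_simp
  ring

/-- the variance `a²` -/
def sqv (a : ℝ) : ℝ≥0 := ⟨a ^ 2, sq_nonneg a⟩

theorem coe_sqv (a : ℝ) : (sqv a : ℝ) = a ^ 2 := rfl

theorem sqv_ne {a : ℝ} (ha : 0 < a) : sqv a ≠ 0 := by
  intro h
  have := congrArg NNReal.toReal h
  rw [coe_sqv, NNReal.coe_zero] at this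
  exact (pow_pos ha 2).ne' this

theorem GS_eq {a : ℝ} (ha : 0 < a) (k : ℝ → ℝ) (u : ℝ) :
    GS (sqv a) k u = (√(2 * Real.pi) * a)⁻¹ * ∫ w, k w * Real.exp (-((u - w) ^ 2 / (2 * a ^ 2))) := by
  unfold GS
  rw [integral_gaussianReal_eq_integral_smul (sqv_ne ha), ← integral_const_mul,
    ← integral_sub_left_eq_self _ volume u]
  refine integral_congr_ae (ae_of_all _ fun w => ?_)
  simp only [gaussianPDFReal, coe_sqv, smul_eq_mul, sub_sub_cancel, sub_zero]
  rw [Real.sqrt_mul (by positivity), Real.sqrt_sq ha.le, neg_div]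
  ring

/-- the kernel of one step -/
noncomputable def ker (a : ℝ) (w : ℝ) : ℝ := ind w - GS (15 * sqv a) ind w

theorem measurable_ker (a : ℝ) : Measurable (ker a) :=
  measurable_ind.sub (measurable_GS _ measurable_ind)

theorem abs_ker_le {a : ℝ} (ha : 0 < a) (w : ℝ) : |ker a w| ≤ Real.exp (-(w ^ 2 / (30 * a ^ 2))) := by
  have := tail (v := 15 * sqv a) (mul_ne_zero (by norm_num) (sqv_ne ha)) w
  rw [NNReal.coe_mul, coe_sqv] at this
  refine this.trans (le_of_eq ?_)
  congr 3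
  push_cast
  ring

theorem abs_ker_le_one {a : ℝ} (ha : 0 < a) (w : ℝ) : |ker a w| ≤ 1 :=
  (abs_ker_le ha w).trans (Real.exp_le_one_iff.2 (neg_nonpos.2 (by positivity)))

theorem GS_ker (a u : ℝ) : GS (sqv a) (ker a) u = GS (sqv a) ind u - GS (sqv (4 * a)) ind u := by
  have : sqv (4 * a) = sqv a + 15 * sqv a := by
    ext
    rw [NNReal.coe_add, NNReal.coe_mul, coe_sqv, coe_sqv]
    push_cast
    ring
  rw [this, GS_add _ _ measurable_ind abs_ind_le]
  exact GS_sub _ measurable_ind abs_ind_le (measurable_GS _ measurable_ind)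
    (abs_GS_le _ abs_ind_le) u

theorem ker_exp_le {a : ℝ} (ha : 0 < a) (h1 : a ≤ 1) (w : ℝ) :
    |ker a w| * Real.exp (200 * |w|) ≤ Real.exp 600000 * Real.exp (-(1 / (60 * a ^ 2)) * w ^ 2) := by
  refine (mul_le_mul_of_nonneg_right (abs_ker_le ha w) (Real.exp_nonneg _)).trans ?_
  rw [← Real.exp_add, ← Real.exp_add, Real.exp_le_exp]
  have e : w ^ 2 / (30 * a ^ 2) = 2 * (1 / (60 * a ^ 2) * w ^ 2) := by field_simp; ring
  have h2 : 1 / 60 ≤ 1 / (60 * a ^ 2) := by
    apply one_div_le_one_div_of_le (by positivity)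
    nlinarith
  have h3 : 1 / 60 * w ^ 2 ≤ 1 / (60 * a ^ 2) * w ^ 2 := mul_le_mul_of_nonneg_right h2 (sq_nonneg w)
  have h4 : w ^ 2 = |w| ^ 2 := (sq_abs w).symm
  nlinarith [sq_nonneg (|w| - 6000)]

theorem gauss_int {a : ℝ} (ha : 0 < a) :
    (√(2 * Real.pi) * a)⁻¹ * ∫ w : ℝ, Real.exp (-(1 / (60 * a ^ 2)) * w ^ 2) ≤ 6 := by
  rw [integral_gaussian, inv_mul_le_iff₀ (by positivity)]
  have e : √(2 * Real.pi) * a * 6 = √(2 * Real.pi * (6 * a) ^ 2) := by
    rw [Real.sqrt_mul (by positivity) ((6 * a) ^ 2), Real.sqrt_sq (by positivity)]; ring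
  rw [e]
  refine Real.sqrt_le_sqrt ?_
  rw [div_div_eq_mul_div, div_one]
  nlinarith [Real.pi_pos, mul_pos Real.pi_pos (pow_pos ha 2)]

theorem rpow_le_exp {δ L : ℝ} (hδ : 0 < δ) (hL : 1 ≤ L) :
    L ^ (3 / 2 : ℝ) ≤ 2 / δ ^ 2 * Real.exp (δ * L) := by
  have h1 : L ^ (3 / 2 : ℝ) ≤ L ^ (2 : ℝ) := Real.rpow_le_rpow_of_exponent_le hL (by norm_num)
  rw [Real.rpow_two] at h1
  have h2 := Real.pow_div_factorial_le_exp (δ * L) (by positivity) 2
  rw [Nat.factorial_two, mul_pow, div_le_iff₀ (by norm_num)] at h2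
  rw [div_mul_eq_mul_div, le_div_iff₀ (by positivity)]
  push_cast at h2
  nlinarith [pow_pos hδ 2]

end Crest.Agent.R12.US
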