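import Crest.Agent.R12.Base.All
import Crest.Agent.R12.US.Gauss

/-! Row 12, block US: `StP → StMain`.  The sharp cut-off is, up to the weight `LW a_J X`, a telescoping
sum of Gaussian smoothings of widths `a_j = 4^{-j}`, each a superposition of weights `LW a_j (X e^w)`. -/

set_option autoImplicit false

namespace Crest.Agent.R12

open Crest.Agent.R17 MeasureTheory US

open Classical in
/-- the coefficient of the prime sum -/
noncomputable def usc (l : ℤ) (p : Pr) : ℂ := if Prime (p : O) then al p ^ l * f0 p else 0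

theorem us_norm_c (l : ℤ) (p : Pr) : ‖usc l p‖ ≤ 3 := by
  unfold usc
  split_ifs with h
  · rw [norm_mul, norm_zpow, norm_al h.ne_zero, one_zpow, one_mul]
    exact norm_f0_le _
  · simp

theorem us_PW (l : ℤ) (a Y : ℝ) : PW l a Y = ∑' p : Pr, usc l p * (LW a Y (nm p) : ℂ) := by
  unfold PW usc
  refine tsum_congr fun p => ?_
  split_ifs <;> simp

theorem us_summable {a Y : ℝ} (ha : 0 < a) (hY : 0 < Y) : Summable fun p : Pr => LW a Y (nm p) := by
  have := (summable_LW ha hY 0).comp_injective (Subtype.val_injective (p := fun n => n ∈ Pr))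
  simpa [Function.comp_def] using this

theorem us_norm_le (l : ℤ) (a Y : ℝ) (p : Pr) :
    ‖usc l p * (LW a Y (nm p) : ℂ)‖ ≤ 3 * LW a Y (nm p) := by
  rw [norm_mul, Complex.norm_real, Real.norm_of_nonneg (LW_pos _ _ _).le]
  exact mul_le_mul_of_nonneg_right (us_norm_c l p) (LW_pos _ _ _).le

theorem us_triv (l : ℤ) : ∃ C : ℝ, 0 < C ∧ ∀ a Y : ℝ, 0 < a → a ≤ 1 → 0 < Y →
    ‖PW l a Y‖ ≤ C * (Y + √Y) := by
  obtain ⟨C, hC, h⟩ := tsum_LW_le
  refine ⟨3 * C, by positivity, fun a Y ha h1 hY => ?_⟩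
  rw [us_PW]
  refine (tsum_of_norm_bounded ((us_summable ha hY).hasSum.mul_left 3) (us_norm_le l a Y)).trans ?_
  have h2 := h a Y ha (by linarith) hY
  have h3 : a * Y ≤ Y := by nlinarith
  nlinarith

theorem us_LW {a X x : ℝ} (hX : 0 < X) (hx : 0 < x) (w : ℝ) :
    LW a (X * Real.exp w) x = Real.exp (-((Real.log (x / X) - w) ^ 2 / (2 * a ^ 2))) := by
  unfold LW
  rw [← div_div x X, Real.log_div (by positivity) (Real.exp_pos w).ne', Real.log_exp]

/-- the smoothed prime sum as a superposition -/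
theorem us_rep (l : ℤ) {a X : ℝ} (ha : 0 < a) (h1 : a ≤ 1) (hX : 0 < X) {k m : ℝ → ℝ}
    (hk : Measurable k) (hk1 : ∀ w, |k w| ≤ 1) (hm : Integrable m)
    (hkm : ∀ w, |k w| * (Real.exp w + Real.exp (w / 2)) ≤ 2 * m w) {D : ℝ}
    (hD : ∀ w, |k w| * ‖PW l a (X * Real.exp w)‖ ≤ D * m w) :
    ∃ T : ℂ, HasSum (fun p : Pr => usc l p * (GS (sqv a) k (Real.log (nm p / X)) : ℂ)) T ∧
      ‖T‖ ≤ D * ((√(2 * Real.pi) * a)⁻¹ * ∫ w, m w) := by
  have : Countable O := Finsupp.Countable.of_moduleFinite (R := ℤ)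
  obtain ⟨C, hC, hLW⟩ := tsum_LW_le
  set F : Pr → ℝ → ℂ := fun p w => (k w : ℂ) * (usc l p * (LW a (X * Real.exp w) (nm p) : ℂ)) with hF
  have hp : ∀ p : Pr, 0 < nm p := fun p => nm_pos (Prim.ne_zero p.2)
  have hFi : ∀ p, Integrable (F p) := by
    intro p
    refine Integrable.bdd_mul (c := 1) (((integral_LW_centre ha hX (hp p)).1.ofReal).const_mul _)
      (Complex.measurable_ofReal.comp hk).aestronglyMeasurable (ae_of_all _ fun w => ?_)
    rw [Complex.norm_real]; exact hk1 w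
  have hFn : ∀ p w, ‖F p w‖ ≤ |k w| * (3 * LW a (X * Real.exp w) (nm p)) := by
    intro p w
    rw [hF]
    simp only
    rw [norm_mul, Complex.norm_real]
    exact mul_le_mul_of_nonneg_left (us_norm_le _ _ _ _) (abs_nonneg _)
  have hs : Summable fun p => ∫ w, ‖F p w‖ := by
    refine summable_of_sum_le (c := ∫ w, 6 * C * (X + √X) * m w)
      (fun p => integral_nonneg fun w => norm_nonneg _) fun S => ?_
    rw [← integral_finsetSum _ fun p _ => (hFi p).norm]
    refine integral_mono (integrable_finsetSum _ fun p _ => (hFi p).norm) (hm.const_mul _) fun w => ?_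
    have hY : 0 < X * Real.exp w := by positivity
    have e1 : ∑ p ∈ S, ‖F p w‖ ≤ |k w| * (3 * ∑ p ∈ S, LW a (X * Real.exp w) (nm p)) := by
      rw [Finset.mul_sum, Finset.mul_sum]
      exact Finset.sum_le_sum fun p _ => hFn p w
    have e2 : ∑ p ∈ S, LW a (X * Real.exp w) (nm p) ≤ C * (a * (X * Real.exp w) + √(X * Real.exp w)) :=
      ((us_summable ha hY).sum_le_tsum S fun p _ => (LW_pos _ _ _).le).trans
        (hLW a _ ha (by linarith) hY)
    have e3 : √(X * Real.exp w) = √X * Real.exp (w / 2) := by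
      rw [Real.sqrt_mul hX.le, Real.exp_half]
    have e4 : a * (X * Real.exp w) + √(X * Real.exp w) ≤
        (X + √X) * (Real.exp w + Real.exp (w / 2)) := by
      rw [e3]
      have : a * (X * Real.exp w) ≤ X * Real.exp w := by nlinarith
      have h5 : 0 ≤ X * Real.exp (w / 2) := by positivity
      have h6 : 0 ≤ √X * Real.exp w := by positivity
      nlinarith
    calc ∑ p ∈ S, ‖F p w‖ ≤ |k w| * (3 * (C * ((X + √X) * (Real.exp w + Real.exp (w / 2))))) := by
          refine e1.trans ?_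
          gcongr
          exact e2.trans (by gcongr)
      _ = 3 * C * (X + √X) * (|k w| * (Real.exp w + Real.exp (w / 2))) := by ring
      _ ≤ 3 * C * (X + √X) * (2 * m w) := mul_le_mul_of_nonneg_left (hkm w) (by positivity)
      _ = 6 * C * (X + √X) * m w := by ring
  have hH := (hasSum_integral_of_summable_integral_norm hFi hs).mul_left
    (((√(2 * Real.pi) * a)⁻¹ : ℝ) : ℂ)
  have hE : ∀ p : Pr, usc l p * (GS (sqv a) k (Real.log (nm p / X)) : ℂ) =
      (((√(2 * Real.pi) * a)⁻¹ : ℝ) : ℂ) * ∫ w, F p w := by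
    intro p
    rw [GS_eq ha, Complex.ofReal_mul, mul_left_comm, ← integral_complex_ofReal, ← integral_const_mul]
    congr 1
    refine integral_congr_ae (ae_of_all _ fun w => ?_)
    simp only [hF, us_LW hX (hp p)]
    rw [Complex.ofReal_mul]
    ring
  refine ⟨_, by simp only [hE]; exact hH, ?_⟩
  rw [norm_mul, Complex.norm_real, Real.norm_of_nonneg (by positivity), mul_left_comm,
    ← integral_const_mul D]
  refine mul_le_mul_of_nonneg_left (norm_integral_le_of_norm_le (hm.const_mul D)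
    (ae_of_all _ fun w => ?_)) (by positivity)
  rw [hF]
  simp only
  rw [tsum_mul_left, ← us_PW, norm_mul, Complex.norm_real]
  exact hD w

/-- `StP` at the centre `e^(L+w)`, `w ≥ -L/2` -/
theorem us_P (h : StP) (l : ℤ) : ∃ C : ℝ, 0 < C ∧ ∀ L a w : ℝ, 2 ≤ L → -(L / 2) ≤ w →
    Real.exp (-(17 / 100 * (L + w))) ≤ a → a ≤ 1 → ‖PW l a (Real.exp L * Real.exp w)‖ ≤
      C * Real.exp (5 / 6 * L) * (√a / L ^ (3 / 2 : ℝ) + 1 / L ^ (3 : ℝ)) * Real.exp (5 / 6 * w) := by
  obtain ⟨C, hC⟩ := h l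
  refine ⟨8 * (|C| + 1), by positivity, fun L a w hL hw ha h1 => ?_⟩
  rw [← Real.exp_add]
  have h2 : 2 ≤ Real.exp (L + w) := by
    have := Real.add_one_le_exp (L + w); linarith
  have h3 := hC (Real.exp (L + w)) a h2 (by rw [← Real.exp_mul]; convert ha using 2; ring) h1
  rw [Real.log_exp, ← Real.exp_mul] at h3
  have hL0 : 0 < L := by linarith
  have key : ∀ s : ℝ, 0 ≤ s → s ≤ 3 → 1 / (L + w) ^ s ≤ 8 * (1 / L ^ s) := by
    intro s hs0 hs
    have e1 : (L / 2) ^ s ≤ (L + w) ^ s := Real.rpow_le_rpow (by positivity) (by linarith) hs0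
    have e2 : (2 : ℝ) ^ s ≤ 8 := by
      have := Real.rpow_le_rpow_of_exponent_le (x := 2) (by norm_num) hs
      rw [show (3 : ℝ) = ((3 : ℕ) : ℝ) by norm_num, Real.rpow_natCast] at this
      linarith
    rw [Real.div_rpow hL0.le (by norm_num)] at e1
    refine (one_div_le_one_div_of_le (by positivity) e1).trans ?_
    rw [one_div_div, div_eq_mul_one_div]
    exact mul_le_mul_of_nonneg_right e2 (by positivity)
  have k1 := key (3 / 2) (by norm_num) (by norm_num)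
  have k2 := key 3 (by norm_num) le_rfl
  have k3 : √a / (L + w) ^ (3 / 2 : ℝ) + 1 / (L + w) ^ (3 : ℝ) ≤
      8 * (√a / L ^ (3 / 2 : ℝ) + 1 / L ^ (3 : ℝ)) := by
    rw [div_eq_mul_one_div √a, div_eq_mul_one_div √a]
    nlinarith [mul_le_mul_of_nonneg_left k1 (Real.sqrt_nonneg a)]
  have k4 : 0 ≤ √a / (L + w) ^ (3 / 2 : ℝ) + 1 / (L + w) ^ (3 : ℝ) := by
    have : 0 < L + w := by linarith
    positivity
  calc _ ≤ _ := h3
    _ ≤ (|C| + 1) * Real.exp ((L + w) * (5 / 6)) * (8 * (√a / L ^ (3 / 2 : ℝ) + 1 / L ^ (3 : ℝ))) := by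
        refine mul_le_mul (mul_le_mul_of_nonneg_right ?_ (Real.exp_nonneg _)) k3 k4 (by positivity)
        linarith [le_abs_self C]
    _ = _ := by
        rw [show (L + w) * (5 / 6) = 5 / 6 * L + 5 / 6 * w by ring, Real.exp_add]; ring

theorem us_P1 (h : StP) (l : ℤ) : ∃ C : ℝ, 0 < C ∧ ∀ L a w : ℝ, 2 ≤ L →
    Real.exp (-(168 / 1000 * L)) ≤ a → a ≤ 1 → ‖PW l a (Real.exp L * Real.exp w)‖ ≤
      C * Real.exp (5 / 6 * L) * (√a / L ^ (3 / 2 : ℝ) + 1 / L ^ (3 : ℝ)) * Real.exp (200 * |w|) := by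
  obtain ⟨C, hC, h1⟩ := us_P h l
  obtain ⟨C', hC', h2⟩ := us_triv l
  refine ⟨C + 12 * C', by positivity, fun L a w hL ha ha1 => ?_⟩
  have hL0 : 0 < L := by linarith
  have ha0 : 0 < a := (Real.exp_pos _).trans_le ha
  rcases le_total (-(L / 100)) w with hw | hw
  · refine (h1 L a w hL (by linarith) (le_trans (Real.exp_le_exp.2 (by linarith)) ha) ha1).trans ?_
    have : Real.exp (5 / 6 * w) ≤ Real.exp (200 * |w|) :=
      Real.exp_le_exp.2 (by linarith [le_abs_self w, abs_nonneg w])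
    gcongr
    linarith
  · refine (h2 a _ ha0 ha1 (by positivity)).trans ?_
    have e1 : Real.exp L * Real.exp w ≤ Real.exp L := by
      rw [← Real.exp_add]; exact Real.exp_le_exp.2 (by linarith)
    have e2 : √(Real.exp L * Real.exp w) ≤ Real.exp L := by
      rw [← Real.exp_add, ← Real.exp_half]; exact Real.exp_le_exp.2 (by linarith)
    have e3 : Real.exp L * Real.exp L ≤ Real.exp (200 * |w|) := by
      rw [← Real.exp_add]; exact Real.exp_le_exp.2 (by linarith [neg_le_abs w])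
    have e4 : 1 ≤ Real.exp (5 / 6 * L) := Real.one_le_exp (by positivity)
    have e5 : 1 ≤ 6 * (1 / L ^ (3 : ℝ) * Real.exp L) := by
      have := Real.pow_div_factorial_le_exp L hL0.le 3
      rw [show (3 : ℝ) = ((3 : ℕ) : ℝ) by norm_num, Real.rpow_natCast, one_div_mul_eq_div,
        ← mul_div_assoc, le_div_iff₀ (by positivity)]
      norm_num [Nat.factorial] at this
      linarith
    have e6 : 0 ≤ √a / L ^ (3 / 2 : ℝ) := by positivity
    calc C' * (Real.exp L * Real.exp w + √(Real.exp L * Real.exp w))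
        ≤ C' * (2 * Real.exp L) * 1 := by rw [mul_one]; gcongr; linarith
      _ ≤ C' * (2 * Real.exp L) * (6 * (1 / L ^ (3 : ℝ) * Real.exp L)) := by gcongr
      _ = 12 * C' * 1 * (1 / L ^ (3 : ℝ)) * (Real.exp L * Real.exp L) := by ring
      _ ≤ _ := by
        gcongr
        · linarith
        · linarith

theorem us_P2 (h : StP) (l : ℤ) : ∃ C : ℝ, 0 < C ∧ ∀ L w : ℝ, 2 ≤ L → w ≤ 0 →
    ‖PW l 1 (Real.exp L * Real.exp w)‖ ≤
      C * Real.exp (5 / 6 * L) / L ^ (3 / 2 : ℝ) * Real.exp (1 / 4 * w) := by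
  obtain ⟨C, hC, h1⟩ := us_P h l
  obtain ⟨C', hC', h2⟩ := us_triv l
  refine ⟨2 * C + 100 * C', by positivity, fun L w hL hw0 => ?_⟩
  have hL0 : 0 < L := by linarith
  rcases le_total (-(L / 2)) w with hw | hw
  · refine (h1 L 1 w hL hw (Real.exp_le_one_iff.2 (by linarith)) le_rfl).trans ?_
    have e1 : Real.exp (5 / 6 * w) ≤ Real.exp (1 / 4 * w) := Real.exp_le_exp.2 (by linarith)
    have e2 : 1 / L ^ (3 : ℝ) ≤ 1 / L ^ (3 / 2 : ℝ) :=
      one_div_le_one_div_of_le (by positivity)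
        (Real.rpow_le_rpow_of_exponent_le (by linarith) (by norm_num))
    rw [Real.sqrt_one]
    calc _ ≤ C * Real.exp (5 / 6 * L) * (1 / L ^ (3 / 2 : ℝ) + 1 / L ^ (3 / 2 : ℝ)) *
          Real.exp (1 / 4 * w) := by gcongr
      _ = 2 * C * Real.exp (5 / 6 * L) / L ^ (3 / 2 : ℝ) * Real.exp (1 / 4 * w) := by ring
      _ ≤ _ := by gcongr; linarith
  · refine (h2 1 _ one_pos le_rfl (by positivity)).trans ?_
    have e1 : Real.exp L * Real.exp w ≤ Real.exp (5 / 8 * L) * Real.exp (1 / 4 * w) := by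
      rw [← Real.exp_add, ← Real.exp_add]; exact Real.exp_le_exp.2 (by linarith)
    have e2 : √(Real.exp L * Real.exp w) ≤ Real.exp (5 / 8 * L) * Real.exp (1 / 4 * w) := by
      rw [← Real.exp_add, ← Real.exp_add, ← Real.exp_half]; exact Real.exp_le_exp.2 (by linarith)
    have e3 : Real.exp (5 / 8 * L) ≤ 50 * Real.exp (5 / 6 * L) / L ^ (3 / 2 : ℝ) := by
      have := rpow_le_exp (δ := 5 / 24) (L := L) (by norm_num) (by linarith)
      rw [le_div_iff₀ (by positivity), show 5 / 6 * L = 5 / 8 * L + 5 / 24 * L by ring, Real.exp_add]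
      have e : Real.exp (5 / 8 * L) * L ^ (3 / 2 : ℝ) ≤
          Real.exp (5 / 8 * L) * (50 * Real.exp (5 / 24 * L)) := by
        gcongr
        linarith [Real.exp_pos (5 / 24 * L)]
      linarith
    calc C' * (Real.exp L * Real.exp w + √(Real.exp L * Real.exp w))
        ≤ C' * (2 * (Real.exp (5 / 8 * L) * Real.exp (1 / 4 * w))) := by gcongr; linarith
      _ ≤ C' * (2 * (50 * Real.exp (5 / 6 * L) / L ^ (3 / 2 : ℝ) * Real.exp (1 / 4 * w))) := by gcongr
      _ = 100 * C' * Real.exp (5 / 6 * L) / L ^ (3 / 2 : ℝ) * Real.exp (1 / 4 * w) := by ring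
      _ ≤ _ := by gcongr; linarith

/-- the widest smoothing -/
theorem us_first (h : StP) (l : ℤ) : ∃ C : ℝ, 0 ≤ C ∧ ∀ L : ℝ, 2 ≤ L → ∃ T : ℂ,
    HasSum (fun p : Pr => usc l p * (GS (sqv 1) ind (Real.log (nm p / Real.exp L)) : ℂ)) T ∧
      ‖T‖ ≤ C * (Real.exp (5 / 6 * L) / L ^ (3 / 2 : ℝ)) := by
  obtain ⟨C, hC, h1⟩ := us_P2 h l
  set m : ℝ → ℝ := (Set.Iic (0 : ℝ)).indicator fun w => Real.exp (1 / 4 * w) with hm
  have hmi : Integrable m :=
    (integrable_indicator_iff measurableSet_Iic).2 (integrableOn_exp_mul_Iic (by norm_num) 0)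
  have hm0 : 0 ≤ ∫ w, m w := integral_nonneg fun w => Set.indicator_nonneg (fun _ _ => by positivity) _
  refine ⟨C * ((√(2 * Real.pi) * 1)⁻¹ * ∫ w, m w), by positivity, fun L hL => ?_⟩
  refine (us_rep l one_pos le_rfl (Real.exp_pos L) measurable_ind abs_ind_le hmi
    (D := C * Real.exp (5 / 6 * L) / L ^ (3 / 2 : ℝ)) (fun w => ?_) (fun w => ?_)).imp
    fun T hT => ⟨hT.1, hT.2.trans (le_of_eq (by ring))⟩
  · unfold ind
    split_ifs with hw
    · rw [hm, Set.indicator_of_mem (show w ∈ Set.Iic (0 : ℝ) from hw), abs_one, one_mul]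
      have e1 : Real.exp w ≤ Real.exp (1 / 4 * w) := Real.exp_le_exp.2 (by linarith)
      have e2 : Real.exp (w / 2) ≤ Real.exp (1 / 4 * w) := Real.exp_le_exp.2 (by linarith)
      linarith
    · rw [hm, Set.indicator_of_notMem (show w ∉ Set.Iic (0 : ℝ) from hw)]; simp
  · unfold ind
    split_ifs with hw
    · rw [hm, Set.indicator_of_mem (show w ∈ Set.Iic (0 : ℝ) from hw), abs_one, one_mul]
      exact h1 L w hL hw
    · rw [hm, Set.indicator_of_notMem (show w ∉ Set.Iic (0 : ℝ) from hw)]; simp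

/-- one step of the telescope -/
theorem us_step (h : StP) (l : ℤ) : ∃ C : ℝ, 0 ≤ C ∧ ∀ L a : ℝ, 2 ≤ L →
    Real.exp (-(168 / 1000 * L)) ≤ a → a ≤ 1 → ∃ T : ℂ,
    HasSum (fun p : Pr => usc l p * (GS (sqv a) (ker a) (Real.log (nm p / Real.exp L)) : ℂ)) T ∧
      ‖T‖ ≤ C * Real.exp (5 / 6 * L) * (√a / L ^ (3 / 2 : ℝ) + 1 / L ^ (3 : ℝ)) := by
  obtain ⟨C, hC, h1⟩ := us_P1 h l
  have hK := Real.exp_pos 600000
  have hker := fun {a : ℝ} (ha : 0 < a) (h1 : a ≤ 1) (w : ℝ) => ker_exp_le ha h1 w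
  generalize Real.exp 600000 = K at hK hker
  refine ⟨C * K * 6, by positivity, fun L a hL ha ha1 => ?_⟩
  have hL0 : 0 < L := by linarith
  have ha0 : 0 < a := (Real.exp_pos _).trans_le ha
  refine (us_rep l ha0 ha1 (Real.exp_pos L) (measurable_ker a) (abs_ker_le_one ha0)
    ((integrable_exp_neg_mul_sq (b := 1 / (60 * a ^ 2)) (by positivity)).const_mul K)
    (D := C * Real.exp (5 / 6 * L) * (√a / L ^ (3 / 2 : ℝ) + 1 / L ^ (3 : ℝ)))
    (fun w => ?_) (fun w => ?_)).imp fun T hT => ⟨hT.1, hT.2.trans ?_⟩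
  rotate_right
  · rw [integral_const_mul, mul_left_comm _ K]
    calc _ ≤ C * Real.exp (5 / 6 * L) * (√a / L ^ (3 / 2 : ℝ) + 1 / L ^ (3 : ℝ)) * (K * 6) := by
          gcongr
          exact gauss_int ha0
      _ = _ := by ring
  · have e1 : Real.exp w ≤ Real.exp (200 * |w|) :=
      Real.exp_le_exp.2 (by linarith [le_abs_self w, abs_nonneg w])
    have e2 : Real.exp (w / 2) ≤ Real.exp (200 * |w|) :=
      Real.exp_le_exp.2 (by linarith [le_abs_self w, abs_nonneg w])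
    have e3 := hker ha0 ha1 w
    nlinarith [abs_nonneg (ker a w)]
  · calc _ ≤ |ker a w| * (C * Real.exp (5 / 6 * L) * (√a / L ^ (3 / 2 : ℝ) + 1 / L ^ (3 : ℝ)) *
          Real.exp (200 * |w|)) := mul_le_mul_of_nonneg_left (h1 L a w hL ha ha1) (abs_nonneg _)
      _ = C * Real.exp (5 / 6 * L) * (√a / L ^ (3 / 2 : ℝ) + 1 / L ^ (3 : ℝ)) *
          (|ker a w| * Real.exp (200 * |w|)) := by ring
      _ ≤ _ := mul_le_mul_of_nonneg_left (hker ha0 ha1 w) (by positivity)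

theorem us_tele (h : StP) (l : ℤ) : ∃ C : ℝ, 0 ≤ C ∧ ∀ L : ℝ, 2 ≤ L → ∀ J : ℕ,
    Real.exp (-(168 / 1000 * L)) ≤ (1 / 4) ^ J → ∃ T : ℂ,
    HasSum (fun p : Pr => usc l p * (GS (sqv ((1 / 4) ^ J)) ind (Real.log (nm p / Real.exp L)) : ℂ)) T ∧
      ‖T‖ ≤ C * Real.exp (5 / 6 * L) * ((2 - (1 / 2) ^ J) / L ^ (3 / 2 : ℝ) + J / L ^ (3 : ℝ)) := by
  obtain ⟨C₁, hC₁, h1⟩ := us_first h l
  obtain ⟨C₂, hC₂, h2⟩ := us_step h l
  refine ⟨C₁ + C₂, by positivity, fun L hL J => ?_⟩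
  have hL0 : 0 < L := by linarith
  induction J with
  | zero =>
    intro _
    obtain ⟨T, hT, hT'⟩ := h1 L hL
    refine ⟨T, by simpa only [pow_zero] using hT, hT'.trans ?_⟩
    calc _ ≤ (C₁ + C₂) * (Real.exp (5 / 6 * L) / L ^ (3 / 2 : ℝ)) := by gcongr; linarith
      _ = _ := by norm_num; ring
  | succ J ih =>
    intro hJ
    have e0 : ((1 / 4 : ℝ)) ^ (J + 1) ≤ (1 / 4) ^ J :=
      pow_le_pow_of_le_one (by norm_num) (by norm_num) (Nat.le_succ J)
    obtain ⟨T, hT, hT'⟩ := ih (hJ.trans e0)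
    obtain ⟨U, hU, hU'⟩ := h2 L _ hL hJ (pow_le_one₀ (by norm_num) (by norm_num))
    refine ⟨T + U, ?_, ?_⟩
    · convert hT.add hU using 2 with p
      rw [GS_ker, show (4 : ℝ) * (1 / 4) ^ (J + 1) = (1 / 4) ^ J by rw [pow_succ]; ring]
      push_cast
      ring
    · have e1 : √((1 / 4 : ℝ) ^ (J + 1)) = (1 / 2) ^ (J + 1) := by
        rw [show (1 / 4 : ℝ) ^ (J + 1) = ((1 / 2) ^ (J + 1)) ^ 2 by rw [← pow_mul, mul_comm, pow_mul]; norm_num,
          Real.sqrt_sq (by positivity)]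
      rw [e1] at hU'
      have e2 : ‖U‖ ≤ (C₁ + C₂) * Real.exp (5 / 6 * L) *
          ((1 / 2) ^ (J + 1) / L ^ (3 / 2 : ℝ) + 1 / L ^ (3 : ℝ)) := by
        refine hU'.trans ?_
        gcongr
        linarith
      refine (norm_add_le _ _).trans ((add_le_add hT' e2).trans (le_of_eq ?_))
      push_cast
      ring

theorem us_sharp (l : ℤ) {X : ℝ} (hX : 0 < X) :
    HasSum (fun p : Pr => usc l p * (ind (Real.log (nm p / X)) : ℂ)) (∑ p ∈ qball X, al p ^ l * f0 p) := by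
  classical
  have hiff : ∀ p : Pr, Real.log (nm p / X) ≤ 0 ↔ nm p ≤ X := by
    intro p
    have hp : 0 < nm p := nm_pos (Prim.ne_zero p.2)
    rw [Real.log_nonpos_iff (by positivity), div_le_one hX]
  rw [← Finset.sum_subtype_of_mem (p := fun n => n ∈ Pr) _ (fun n hn => (mem_qball.1 hn).2.2)]
  have e : ∑ p ∈ (qball X).subtype (fun n => n ∈ Pr), al p ^ l * f0 p =
      ∑ p ∈ (qball X).subtype (fun n => n ∈ Pr), usc l p * (ind (Real.log (nm p / X)) : ℂ) := by
    refine Finset.sum_congr rfl fun p hp => ?_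
    have := mem_qball.1 (Finset.mem_subtype.1 hp)
    simp [usc, ind, this.2.1, (hiff p).2 this.1]
  rw [e]
  refine hasSum_sum_of_ne_finset_zero fun p hp => ?_
  rw [Finset.mem_subtype, mem_qball] at hp
  by_cases h1 : Prime (p : O)
  · have h2 : ¬ Real.log (nm p / X) ≤ 0 := fun h => hp ⟨(hiff p).1 h, h1, p.2⟩
    simp [ind, h2]
  · simp [usc, h1]

theorem us_main (h : StP) (l : ℤ) : ∃ C : ℝ, 0 ≤ C ∧ ∀ L : ℝ, 2 ≤ L →
    ‖∑ p ∈ qball (Real.exp L), al p ^ l * f0 p‖ ≤ C * (Real.exp (5 / 6 * L) / L ^ (3 / 2 : ℝ)) := by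
  obtain ⟨C, hC, h1⟩ := us_tele h l
  obtain ⟨C', hC', h2⟩ := tsum_LW_le
  refine ⟨3 * C + 3 * C' * 5 * (2 / (1 / 750) ^ 2), by positivity, fun L hL => ?_⟩
  have hL0 : 0 < L := by linarith
  obtain ⟨J, hJ1, hJ2⟩ := exists_nat_pow_near (x := Real.exp (168 / 1000 * L)) (y := 4)
    (Real.one_le_exp (by positivity)) (by norm_num)
  have a1 : Real.exp (-(168 / 1000 * L)) ≤ (1 / 4) ^ J := by
    rw [Real.exp_neg, one_div_pow, one_div]
    exact inv_anti₀ (by positivity) hJ1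
  have a2 : (1 / 4 : ℝ) ^ J ≤ 4 * Real.exp (-(168 / 1000 * L)) := by
    rw [Real.exp_neg, one_div_pow, ← div_eq_mul_inv, div_le_div_iff₀ (by positivity) (by positivity)]
    rw [pow_succ] at hJ2
    linarith
  have a3 : (J : ℝ) ≤ L := by
    have e1 : Real.exp J ≤ 4 ^ J := by
      rw [← Real.exp_one_pow]
      exact pow_le_pow_left₀ (Real.exp_nonneg _) (by linarith [Real.exp_one_lt_d9]) J
    have := Real.exp_le_exp.1 (e1.trans hJ1)
    linarith
  obtain ⟨T, hT, hT'⟩ := h1 L hL J a1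
  set a : ℝ := (1 / 4) ^ J with ha
  have ha0 : 0 < a := by positivity
  have ha1 : a ≤ 1 := pow_le_one₀ (by norm_num) (by norm_num)
  have hD := ((us_sharp l (Real.exp_pos L)).sub hT).norm_le_of_bounded
    ((us_summable ha0 (Real.exp_pos L)).hasSum.mul_left 3) (fun p => by
      rw [← mul_sub, ← Complex.ofReal_sub, norm_mul, Complex.norm_real]
      exact mul_le_mul (us_norm_c l p) (tail (sqv_ne ha0) _) (norm_nonneg _) (by norm_num))
  have b1 := h2 a _ ha0 (by linarith) (Real.exp_pos L)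
  have b2 : a * Real.exp L + √(Real.exp L) ≤ 5 * Real.exp (832 / 1000 * L) := by
    have e1 : Real.exp (-(168 / 1000 * L)) * Real.exp L = Real.exp (832 / 1000 * L) := by
      rw [← Real.exp_add]; congr 1; ring
    have e2 : √(Real.exp L) ≤ Real.exp (832 / 1000 * L) := by
      rw [← Real.exp_half]; exact Real.exp_le_exp.2 (by linarith)
    nlinarith [Real.exp_pos L]
  have b3 : Real.exp (832 / 1000 * L) ≤ 2 / (1 / 750) ^ 2 * (Real.exp (5 / 6 * L) / L ^ (3 / 2 : ℝ)) := by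
    have := rpow_le_exp (δ := 1 / 750) (L := L) (by norm_num) (by linarith)
    rw [← mul_div_assoc, le_div_iff₀ (by positivity),
      show 5 / 6 * L = 832 / 1000 * L + 1 / 750 * L by ring, Real.exp_add, mul_left_comm]
    exact mul_le_mul_of_nonneg_left this (Real.exp_nonneg _)
  have b4 : (2 - (1 / 2) ^ J) / L ^ (3 / 2 : ℝ) + J / L ^ (3 : ℝ) ≤ 3 / L ^ (3 / 2 : ℝ) := by
    have e1 : (2 - (1 / 2) ^ J) / L ^ (3 / 2 : ℝ) ≤ 2 / L ^ (3 / 2 : ℝ) := by
      gcongr
      linarith [pow_pos (show (0 : ℝ) < 1 / 2 by norm_num) J]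
    have e2 : J / L ^ (3 : ℝ) ≤ 1 / L ^ (3 / 2 : ℝ) := by
      rw [div_le_div_iff₀ (by positivity) (by positivity), one_mul]
      calc (J : ℝ) * L ^ (3 / 2 : ℝ) ≤ L ^ (1 : ℝ) * L ^ (3 / 2 : ℝ) := by rw [Real.rpow_one]; gcongr
        _ = L ^ (5 / 2 : ℝ) := by rw [← Real.rpow_add hL0]; norm_num
        _ ≤ _ := Real.rpow_le_rpow_of_exponent_le (by linarith) (by norm_num)
    calc _ ≤ 2 / L ^ (3 / 2 : ℝ) + 1 / L ^ (3 / 2 : ℝ) := add_le_add e1 e2
      _ = _ := by ring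
  have b5 : ‖T‖ ≤ 3 * C * (Real.exp (5 / 6 * L) / L ^ (3 / 2 : ℝ)) := by
    refine hT'.trans ((mul_le_mul_of_nonneg_left b4 (by positivity)).trans (le_of_eq (by ring)))
  have b6 : C' * (a * Real.exp L + √(Real.exp L)) ≤
      C' * (5 * (2 / (1 / 750) ^ 2 * (Real.exp (5 / 6 * L) / L ^ (3 / 2 : ℝ)))) := by
    gcongr
    linarith
  have b7 := norm_le_norm_add_norm_sub' (∑ p ∈ qball (Real.exp L), al p ^ l * f0 p) T
  linarith

theorem stMain (h : StP) : StMain := by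
  intro l
  obtain ⟨C, hC, h1⟩ := us_main h l
  refine ⟨C + 33 * Real.exp 2 * 8, fun X hX => ?_⟩
  have hX0 : 0 < X := by linarith
  have hL0 : 0 < Real.log X := Real.log_pos (by linarith)
  rcases le_total 2 (Real.log X) with hL | hL
  · have := h1 _ hL
    rw [Real.exp_log hX0, mul_comm (5 / 6 : ℝ), ← Real.rpow_def_of_pos hX0, ← mul_div_assoc] at this
    refine this.trans ?_
    gcongr
    linarith [Real.exp_pos 2]
  · have e1 : ‖∑ p ∈ qball X, al p ^ l * f0 p‖ ≤ ((qball X).card : ℝ) * 3 := by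
      rw [← nsmul_eq_mul]
      refine (norm_sum_le _ _).trans (Finset.sum_le_card_nsmul _ _ _ fun p hp => ?_)
      rw [norm_mul, norm_zpow, norm_al (mem_qball.1 hp).2.1.ne_zero, one_zpow, one_mul]
      exact norm_f0_le _
    have e2 : ((qball X).card : ℝ) ≤ 11 * X := by
      refine le_trans ?_ (card_ball_le (by linarith))
      exact_mod_cast Finset.card_le_card fun p hp => mem_ball.2 (mem_qball.1 hp).1
    have e3 : X ≤ Real.exp 2 := by rw [← Real.exp_log hX0]; exact Real.exp_le_exp.2 hL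
    have e4 : Real.log X ^ (3 / 2 : ℝ) ≤ 8 := by
      calc _ ≤ (2 : ℝ) ^ (3 / 2 : ℝ) := Real.rpow_le_rpow hL0.le hL (by norm_num)
        _ ≤ (2 : ℝ) ^ ((3 : ℕ) : ℝ) := Real.rpow_le_rpow_of_exponent_le (by norm_num) (by norm_num)
        _ = 8 := by rw [Real.rpow_natCast]; norm_num
    have e5 : 1 ≤ X ^ (5 / 6 : ℝ) := Real.one_le_rpow (by linarith) (by norm_num)
    rw [le_div_iff₀ (by positivity)]
    calc _ ≤ 33 * Real.exp 2 * 8 := by gcongr; linarith
      _ ≤ (C + 33 * Real.exp 2 * 8) * 1 := by linarith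
      _ ≤ _ := by gcongr

end Crest.Agent.R12
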